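import Mathlib

/-!
The canonical stage map: pure definitions.

A stage datum consists of the numerators `A v x` (over `q ^ b`) of a stochastic matrix on the states
`0, ..., n - 1`, the weights `q ^ c v` and the counters `k v`. The real kernels `P_a^Z (v, x)` and
the loss enter through the structure `Sem`; everything else is integer arithmetic.
-/

namespace Vale.Agent.P313.BP

open Finset

/-- Numerical parameters. The states are `0, ..., n - 1`, the last one, `n - 1`, is the sink. -/
structure Par where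
  /-- number of states -/
  n : ℕ
  /-- a prime -/
  q : ℕ
  /-- the entries of the matrices have denominator `q ^ b` -/
  b : ℕ
  /-- number of doublings in one stage -/
  r : ℕ
  /-- killing rate `2 ^ (-rk)` of one stage (`r'` in the paper proof) -/
  rk : ℕ
  /-- final value of the counters `k` -/
  K : ℕ
  /-- the scale of fixed point numbers is `2 ^ rk * q ^ b * Th1` -/
  Th1 : ℕ
  /-- number of offsets -/
  D : ℕ
  /-- the products have `2 ^ JF ≥ r` factors -/
  JF : ℕ
  /-- number of Newton steps -/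
  JN : ℕ

/-- The scale of fixed point numbers. -/
def Par.Th (p : Par) : ℕ := 2 ^ p.rk * p.q ^ p.b * p.Th1

/-- The data of a stage. -/
structure SD where
  /-- numerators of the matrix, `A v x / q ^ b` is the probability of `v → x` -/
  A : ℕ → ℕ → ℕ
  /-- the weight of `v` is `q ^ (c v)` (up to normalisation) -/
  c : ℕ → ℕ
  /-- the stopping probability at `v` is `2 ^ (- rk * k v)` -/
  k : ℕ → ℕ

/-- The real quantities of a stage: the kernels `P_a^Z (v, x)` and the loss
`∑ a < r, (h X_a^Z) (x) / h (x)`. -/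
structure Sem where
  P : SD → (ℕ → Prop) → ℕ → ℕ → ℕ → ℝ
  loss : SD → (ℕ → Prop) → ℕ → ℝ

variable (p : Par) (S : Sem)

/-- Rounding up with an offset: `x ≤ up x / Th ≤ x + 2 / Th`. -/
noncomputable def up (o : ℕ) (x : ℝ) : ℕ := ⌊(p.Th : ℝ) * x + (o : ℝ) / p.D⌋₊ + 1

/-- Products of `2 ^ j` fixed point matrices, the factor with the highest index on the left:
`prodM j i ≈ fac (2 ^ j * (i + 1) - 1) * ... * fac (2 ^ j * i)`. -/
def prodM (fac : ℕ → ℕ → ℕ → ℕ) : ℕ → ℕ → ℕ → ℕ → ℕ
  | 0, i, v, x => fac i v x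
  | j + 1, i, v, x =>
    (∑ y ∈ range p.n, prodM fac j (2 * i + 1) v y * prodM fac j (2 * i) y x) / p.Th + 1

/-! ### The first exceptional set -/

/-- Rounded kernels without exceptional set. -/
noncomputable def P0 (d : SD) (o a v x : ℕ) : ℕ := up p o (S.P d (fun _ => False) a v x)

/-- The factors `I + P_a`. -/
noncomputable def fac0 (d : SD) (o a v x : ℕ) : ℕ :=
  (if v = x then p.Th else 0) + (if a < p.r then P0 p S d o a v x else 0)

/-- `q ^ b * (h N) (x)` with `h v = q ^ (c v - b)`. -/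
def tot (d : SD) (x : ℕ) : ℕ := ∑ v ∈ range p.n, p.q ^ (d.c v - p.b) * d.A v x

/-- `Th * F (x)`. -/
noncomputable def Ft (d : SD) (o x : ℕ) : ℕ :=
  ∑ v ∈ range p.n, p.q ^ (d.c v - p.b) * prodM p (fac0 p S d o) p.JF 0 v x

/-- The first exceptional set: `h N ≥ G h` or `F ≥ G h`, `G = q ^ 4`. -/
def Z1 (d : SD) (o x : ℕ) : Prop :=
  p.q ^ (4 + d.c x) ≤ tot p d x ∨ p.q ^ (4 + (d.c x - p.b)) * p.Th ≤ Ft p S d o x

/-! ### The second exceptional set -/

/-- Rounded loss. -/
noncomputable def lossR (d : SD) (o o' x : ℕ) : ℕ := up p o' (S.loss d (Z1 p S d o) x)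

/-- The exceptional set: `Z1` or loss at least `2 q ^ (-7)`. -/
def Zst (d : SD) (o o' x : ℕ) : Prop :=
  Z1 p S d o x ∨ 2 * p.Th ≤ lossR p S d o o' x * p.q ^ 7

/-- The set which is avoided in this stage. -/
def Zs (d : SD) (o o' x : ℕ) : Prop := Zst p S d o o' x ∨ p.K ≤ d.k x

/-! ### The preconditioner and Newton's iteration -/

/-- Rounded kernels avoiding `Zs`. -/
noncomputable def P2 (d : SD) (o o' o'' a v x : ℕ) : ℕ := up p o'' (S.P d (Zs p S d o o') a v x)

/-- `Th * κ ^ (2 ^ a)`, `κ = 1 - 2 ^ (-rk)`. -/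
def kp : ℕ → ℕ
  | 0 => p.Th - p.Th / 2 ^ p.rk
  | a + 1 => kp a ^ 2 / p.Th

/-- The factors `I + κ ^ (2 ^ a) P_a`. -/
noncomputable def fac2 (d : SD) (o o' o'' a v x : ℕ) : ℕ :=
  (if v = x then p.Th else 0) +
    (if a < p.r then kp p a * P2 p S d o o' o'' a v x / p.Th else 0)

open Classical in
/-- `Th * (I - κ N_Z)`. -/
noncomputable def Lm (d : SD) (o o' v x : ℕ) : ℤ :=
  (if v = x then (p.Th : ℤ) else 0) -
    (if Zs p S d o o' x then 0 else ((2 : ℤ) ^ p.rk - 1) * p.Th1 * d.A v x)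

/-- One Newton step, first product: `2 I - G L`. -/
def Hn (L G : ℕ → ℕ → ℤ) (v y : ℕ) : ℤ :=
  (if v = y then 2 * (p.Th : ℤ) else 0) - (∑ u ∈ range p.n, G v u * L u y) / (p.Th : ℤ)

/-- One Newton step: `(2 I - G L) G`. -/
def Gn (L G : ℕ → ℕ → ℤ) (v x : ℕ) : ℤ :=
  (∑ y ∈ range p.n, Hn p L G v y * G y x) / (p.Th : ℤ)

/-- Newton's iteration. -/
noncomputable def Gz (d : SD) (o o' o'' : ℕ) : ℕ → ℕ → ℕ → ℤ
  | 0 => fun v x => (prodM p (fac2 p S d o o' o'') p.JF 0 v x : ℤ)
  | j + 1 => Gn p (Lm p S d o o') (Gz d o o' o'' j)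

open Classical in
/-- `q ^ b * ((I - κ N_Z)⁻¹ N D_β) (v, x)`, rounded down. -/
noncomputable def Phi (d : SD) (o o' o'' v x : ℕ) : ℤ :=
  (∑ y ∈ range p.n, Gz p S d o o' o'' p.JN v y * (d.A y x : ℤ) *
    (if Zs p S d o o' x then 2 ^ p.rk else 1)) / ((p.Th : ℤ) * 2 ^ p.rk)

open Classical in
/-- The next stage. -/
noncomputable def next (d : SD) (o o' o'' : ℕ) : SD where
  A := fun v x =>
    if x + 1 = p.n then
      p.q ^ p.b - ∑ y ∈ range (p.n - 1), (Phi p S d o o' o'' v y - 1).toNat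
    else (Phi p S d o o' o'' v x - 1).toNat
  c := fun x => d.c x + if Zst p S d o o' x ∧ d.k x < p.K then 1 else 0
  k := fun x => d.k x + if Zs p S d o o' x then 0 else 1

/-- The first stage for a chain with two equally likely successors `cs v false`, `cs v true` of
each state `v` (the sink is absorbing). -/
def init (cs : ℕ → Bool → ℕ) : SD where
  A := fun v x =>
    if v + 1 < p.n then
      if x + 1 < p.n then
        ((if cs v false = x then 1 else 0) + (if cs v true = x then 1 else 0)) * (p.q ^ p.b / 2)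
      else p.q ^ p.b - 2 * (p.q ^ p.b / 2)
    else if x = v then p.q ^ p.b else 0
  c := fun _ => p.b
  k := fun v => if v + 1 = p.n then p.K else 0

/-- The canonical data for given offsets `o s 0`, `o s 1`, `o s 2`. -/
noncomputable def data (cs : ℕ → Bool → ℕ) (o : ℕ → ℕ → ℕ) : ℕ → SD
  | 0 => init p cs
  | s + 1 => next p S (data cs o s) (o s 0) (o s 1) (o s 2)

end Vale.Agent.P313.BP
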