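import Vale.Agent.P313.BP.PhVal
import Vale.Agent.P313.H136.Pre
import Vale.Agent.P313.H205.Dec

/-!
The instance: the token system of a stage datum, the real kernels `theSem`, and the numbers which
the tours compute, `theTSem`.
-/

namespace Vale.Agent.P313.BP

open Finset Classical Vale.Agent.P313.H136

variable (p : Par2)

/-- The layout of the tokens of a stage datum. -/
def lay (d : SD) : H205.Lay where
  q := p.q
  t := 31
  n := p.n
  c := fun w => min (d.c w) p.cmax
  cm := p.cmax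
  nd := p.nd

theorem lay_c_le (d : SD) (w : ℕ) : (lay p d).c w ≤ (lay p d).cm := min_le_right _ _

/-- Tokens of level `a` of a stage datum. -/
abbrev TokS (d : SD) (a : ℕ) : Type := Tok (lay p d).X0 ((lay p d).Ec × (lay p d).Sd) a

variable [hq0 : NeZero p.q]

instance instNeZeroLay (d : SD) : NeZero (lay p d).q := hq0

/-- One hop of tokens (with a fallback for data which are not valid). -/
def hopT (d : SD) (u : (lay p d).X0) : (lay p d).X0 :=
  if h : (hopF p.toPar d u.1 u.2).1 < p.n then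
    ⟨⟨(hopF p.toPar d u.1 u.2).1, h⟩,
      ⟨(hopF p.toPar d u.1 u.2).2 % p.q ^ min (d.c (hopF p.toPar d u.1 u.2).1) p.cmax,
        Nat.mod_lt _ (Nat.pow_pos (Nat.pos_of_ne_zero (NeZero.ne p.q)))⟩⟩
  else u

/-- The token system of a stage datum. -/
abbrev sysc (d : SD) : Sys (Fin p.n) (lay p d).X0 (lay p d).Ec (lay p d).Sd :=
  H205.Lay.sys (lay_c_le p d) (hopT p d)

/-- The token of level `a` with state `w`, number `z` and the labels on the tape `t`. -/
abbrev dec (d : SD) (a : ℕ) (w : Fin p.n) (z : Fin ((lay p d).q ^ (lay p d).c w)) (t : Tp) :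
    TokS p d a :=
  (lay p d).dec a w z t

/-- The real quantities of a stage. -/
noncomputable def theSem : Sem where
  P := fun d Z a v x =>
    if h : v < p.n ∧ x < p.n then
      (sysc p d).P (1 / (p.q : ℝ) ^ p.b) p.Lam {w : Fin p.n | Z w} a ⟨v, h.1⟩ ⟨x, h.2⟩
    else 0
  loss := fun d Z x =>
    if h : x < p.n then
      (∑ a ∈ range p.r, (sysc p d).hX (1 / (p.q : ℝ) ^ p.b) p.Lam {w : Fin p.n | Z w} a ⟨x, h⟩) /
        (sysc p d).hh (1 / (p.q : ℝ) ^ p.b) ⟨x, h⟩
    else 0

/-- The numbers which the tours compute. -/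
noncomputable def theTSem : TSem where
  W := fun d a x z t =>
    if h : x < p.n ∧ z < (lay p d).q ^ (lay p d).c x then
      (sysc p d).W a (dec p d a ⟨x, h.1⟩ ⟨z, h.2⟩ t)
    else 0
  C := fun d Z a v x z t =>
    if h : x < p.n ∧ z < (lay p d).q ^ (lay p d).c x then
      #{u : TokS p d a | (sysc p d).U a u = dec p d a ⟨x, h.1⟩ ⟨z, h.2⟩ t ∧
        (((sysc p d).stT a u : ℕ) = v ∨ p.n ≤ v) ∧ (sysc p d).ok {w : Fin p.n | Z w} a u}
    else 0
  Lo := fun d Z a x z t =>
    if h : x < p.n ∧ z < (lay p d).q ^ (lay p d).c x then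
      if p.Lam ≤ (sysc p d).W (a + 1) (dec p d (a + 1) ⟨x, h.1⟩ ⟨z, h.2⟩ t) then
        #{u : TokS p d (a + 1) |
          (sysc p d).U (a + 1) u = dec p d (a + 1) ⟨x, h.1⟩ ⟨z, h.2⟩ t ∧
          (sysc p d).al p.Lam {w : Fin p.n | Z w} a u.1 ∧
          (sysc p d).al p.Lam {w : Fin p.n | Z w} a
            ((sysc p d).R a ((sysc p d).U a u.1, u.2)).1}
      else 0
    else 0

end Vale.Agent.P313.BP
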