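import Vale.Agent.P313.BP.Lay

/-!
The value of every phase: what the level `s * m + ph` has to return on a query, for the canonical
data of stage `s`, as a function of the query and the tape. All definitions are pure.
-/

namespace Vale.Agent.P313.BP

open Finset

/-- The shared tape. -/
abbrev Tp := ℕ → ℕ

/-- More parameters, see `Lay.lean`. -/
structure Par2 extends Par where
  cmax : ℕ
  nd : ℕ
  Lam : ℕ
  Q : ℕ
  DC : ℕ
  c0 : ℕ
  lw : ℕ
  Om : ℕ
  S : ℕ

/-- Number of cells of the label tape. -/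
def Par2.L (p : Par2) : ℕ := lab * p.r

/-- Number of phases. -/
def Par2.m (p : Par2) : ℕ := nph p.JF p.JN

/-! ### The hop -/

/-- `∑ x' < x, A v x'`. -/
def cumR (d : SD) (v x : ℕ) : ℕ := ∑ x' ∈ range x, d.A v x'

/-- `∑ v' < v, q ^ (c v' - b) * A v' x`: the number of tokens which go to `x` from states before
`v`. -/
def cumC (p : Par) (d : SD) (x v : ℕ) : ℕ := ∑ v' ∈ range v, p.q ^ (d.c v' - p.b) * d.A v' x

/-- The target of the token `(v, z)` and its rank among the tokens which go there. -/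
def hopF (p : Par) (d : SD) (v z : ℕ) : ℕ × ℕ :=
  let x := #{x' ∈ range p.n | p.q ^ (d.c v - p.b) * cumR d v (x' + 1) ≤ z}
  (x, cumC p d x v + (z - p.q ^ (d.c v - p.b) * cumR d v x))

/-- The token with target `x` and rank `ρ`. -/
def hopB (p : Par) (d : SD) (x ρ : ℕ) : ℕ × ℕ :=
  let v := #{v' ∈ range p.n | cumC p d x (v' + 1) ≤ ρ}
  (v, ρ - cumC p d x v + p.q ^ (d.c v - p.b) * cumR d v x)

/-! ### The trees -/

/-- The quantities which the tours compute, for the token `(x, z, tape)` of level `a`: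
`W`: number of proper descendants; `C Z a v`: number of leaves with state `v` (any state if
`n ≤ v`) whose path to the root avoids `Z` (at all nodes but the leaf);
`Lo Z a`: number of two-phase alive leaves avoiding `Z` of the tree of level `a + 1` if this tree
has at least `Λ` proper descendants, otherwise `0`. -/
structure TSem where
  W : SD → ℕ → ℕ → ℕ → Tp → ℕ
  C : SD → (ℕ → Prop) → ℕ → ℕ → ℕ → ℕ → Tp → ℕ
  Lo : SD → (ℕ → Prop) → ℕ → ℕ → ℕ → Tp → ℕ

/-- Number of alive leaves. -/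
def TSem.cnt (T : TSem) (Lam : ℕ) (d : SD) (Z : ℕ → Prop) (a v x z : ℕ) (t : Tp) : ℕ :=
  if T.W d a x z t < Lam then T.C d Z a v x z t else 0

/-- Value of the phase TOUR. -/
def TSem.tour (T : TSem) (Lam : ℕ) (d : SD) (Z : ℕ → Prop) (a v x z : ℕ) (t : Tp) : ℕ :=
  if T.W d a x z t < Lam then Nat.pair (T.W d a x z t) (T.C d Z a v x z t) + 1 else 0

/-! ### The samples -/

/-- Coordinate `c < 2 * DC` of point `j` of the walk of the sampler; `w` is the seed. -/
def ptN (p : Par2) (w : ℕ → ℕ) (j c : ℕ) : ℕ :=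
  (w c + ∑ i ∈ range j, w (2 * p.DC + 2 * i + 1) * w (2 * p.DC + 2 * i) ^ c) % p.Q

/-- Coordinate `c < DC` of point `σ` of the line of point `j`. -/
def lnN (p : Par2) (w : ℕ → ℕ) (j σ c : ℕ) : ℕ :=
  (ptN p w j c + σ * ptN p w j (p.DC + c)) % p.Q

/-- Tape digit `i` of the sample. -/
def dgN (p : Par2) (w : ℕ → ℕ) (j σ i : ℕ) : ℕ := lnN p w j σ (i / p.c0) / p.q ^ (i % p.c0) % p.q

/-- The tape shifted by the sample. -/
def shT (p : Par2) (w : ℕ → ℕ) (j σ : ℕ) (t : Tp) : Tp :=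
  fun i => if i < p.L then (t i + dgN p w j σ i) % p.q else t i

/-- Average of a function of the tape along point `j` of the walk (times `Q`). -/
def sumJ (p : Par2) (w : ℕ → ℕ) (j : ℕ) (f : Tp → ℕ) (t : Tp) : ℕ :=
  ∑ σ ∈ range p.Q, f (shT p w j σ t)

/-- `up` of the rational number `s / (Q * H)`. -/
def upN (p : Par2) (o H s : ℕ) : ℕ := (p.D * p.Th * s + o * (p.Q * H)) / (p.D * (p.Q * H)) + 1

/-- The alive flow into `x` from `v` at a tape: `∑ z < q ^ c x, cnt`. -/
def flow (p : Par2) (T : TSem) (d : SD) (Z : ℕ → Prop) (a v x : ℕ) (t : Tp) : ℕ :=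
  ∑ z ∈ range (p.q ^ d.c x), T.cnt p.Lam d Z a v x z t

/-- The loss into `x` at a tape. -/
def lossT (p : Par2) (T : TSem) (d : SD) (Z : ℕ → Prop) (x : ℕ) (t : Tp) : ℕ :=
  ∑ a ∈ range p.r, ∑ z ∈ range (p.q ^ d.c x), T.Lo d Z a x z t

/-- Value of the phase AVERAGE. -/
def avgV (p : Par2) (T : TSem) (w : ℕ → ℕ) (d : SD) (Z : ℕ → Prop) (o j a v x : ℕ) (t : Tp) : ℕ :=
  upN p o (p.q ^ d.c v) (sumJ p w j (flow p T d Z a v x) t)

/-- Value of the phase AVERAGE of the loss. -/
def avgL (p : Par2) (T : TSem) (w : ℕ → ℕ) (d : SD) (Z : ℕ → Prop) (o j x : ℕ) (t : Tp) : ℕ :=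
  upN p o (p.q ^ d.c x) (sumJ p w j (lossT p T d Z x) t)

/-- Majority of `g 0, ..., g lw` (`0` if there is none). -/
noncomputable def maj (lw : ℕ) (g : ℕ → ℕ) : ℕ :=
  open Classical in
  if h : ∃ j ≤ lw, lw + 1 < 2 * #{i ∈ range (lw + 1) | g i = g j} then g (Nat.find h) else 0

end Vale.Agent.P313.BP
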